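import Crest.Agent.N49.Gw.Add

/-!
# Row 49 (helper31): Hölder's inequality with cloned variables on infinite sums
-/

set_option autoImplicit false
open Finset

namespace Crest.Agent.N49.Gw

/-- sums over finitely many independent variables, `Fin n` version -/
theorem hasSum_fin_prod {𝕜 : Type*} [RCLike 𝕜] : ∀ {n : ℕ} {V : Fin n → Type*} (f : ∀ i, V i → 𝕜),
    (∀ i, Summable (f i)) → HasSum (fun v : ∀ i, V i => ∏ i, f i (v i)) (∏ i, ∑' x, f i x)
  | 0, V, f, _ => by simp
  | n + 1, V, f, h => by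
    have ih := hasSum_fin_prod (fun i => f i.succ) fun i => h i.succ
    rw [← (Fin.consEquiv V).hasSum_iff, Fin.prod_univ_succ, ← ih.tsum_eq,
      tsum_mul_tsum_of_summable_norm (h 0).norm ih.summable.norm]
    convert (summable_mul_of_summable_norm (h 0).norm ih.summable.norm).hasSum using 1
    funext p
    simp [Fin.prod_univ_succ, Fin.consEquiv]

/-- sums over finitely many independent variables -/
theorem hasSum_pi_prod {𝕜 : Type*} [RCLike 𝕜] {ι : Type*} [Fintype ι] {V : ι → Type*}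
    (f : ∀ i, V i → 𝕜) (h : ∀ i, Summable (f i)) :
    HasSum (fun v : ∀ i, V i => ∏ i, f i (v i)) (∏ i, ∑' x, f i x) := by
  let e := (Fintype.equivFin ι).symm
  have := hasSum_fin_prod (V := fun i => V (e i)) (fun i => f (e i)) fun i => h _
  rw [← (Equiv.piCongrLeft V e).hasSum_iff, ← e.prod_comp]
  convert this using 1
  funext v
  rw [Function.comp_apply, ← e.prod_comp]
  simp

variable {R V : Type*} {ρ : R → ℝ} {κ : R → V → ℝ}

/-- Jensen's inequality for infinite weighted sums -/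
theorem tsum_jensen (h0 : ∀ r, 0 ≤ ρ r) (hs : Summable ρ) {T : R → ℝ} {q : ℕ}
    (hT : Summable fun r => ρ r * |T r| ^ (q + 1)) :
    |∑' r, ρ r * T r| ^ (q + 1) ≤ (∑' r, ρ r) ^ q * ∑' r, ρ r * |T r| ^ (q + 1) := by
  have h2 : Summable fun r => ρ r * |T r| :=
    (hs.add hT).of_nonneg_of_le (fun r => mul_nonneg (h0 r) (abs_nonneg _)) fun r => by
      rw [← mul_one_add]
      refine mul_le_mul_of_nonneg_left ?_ (h0 r)
      rcases le_total |T r| 1 with c | c
      · exact le_add_of_le_of_nonneg c (by positivity)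
      · exact le_add_of_nonneg_of_le zero_le_one (le_self_pow₀ c q.succ_ne_zero)
  have h3 : ∀ s : Finset R, (∑ r ∈ s, ρ r * |T r|) ^ (q + 1) ≤
      (∑' r, ρ r) ^ q * ∑' r, ρ r * |T r| ^ (q + 1) := fun s => by
    have n1 : ∀ r, 0 ≤ ρ r * |T r| ^ (q + 1) := fun r => mul_nonneg (h0 r) (by positivity)
    refine le_trans ?_ (mul_le_mul (pow_le_pow_left₀ (sum_nonneg fun r _ => h0 r)
      (hs.sum_le_tsum s fun r _ => h0 r) q) (hT.sum_le_tsum s fun r _ => n1 r)
      (sum_nonneg fun r _ => n1 r) (pow_nonneg (tsum_nonneg h0) q))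
    rcases (sum_nonneg fun r (_ : r ∈ s) => h0 r).eq_or_lt with e | e
    · have z : ∀ r ∈ s, ρ r = 0 := (sum_eq_zero_iff_of_nonneg fun r _ => h0 r).1 e.symm
      rw [sum_eq_zero (f := fun r => ρ r * |T r|) fun r hr => by rw [z r hr, zero_mul],
        sum_eq_zero (f := fun r => ρ r * |T r| ^ (q + 1)) fun r hr => by rw [z r hr, zero_mul]]
      simp
    · have := Real.pow_arith_mean_le_arith_mean_pow s (fun r => ρ r / ∑ r ∈ s, ρ r)
        (fun r => |T r|) (fun r _ => div_nonneg (h0 r) e.le)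
        (by rw [← sum_div]; exact div_self e.ne') (fun r _ => abs_nonneg _) (q + 1)
      simp only [div_mul_eq_mul_div, ← sum_div] at this
      rw [div_pow, div_le_div_iff₀ (pow_pos e _) e, pow_succ (∑ r ∈ s, ρ r), ← mul_assoc] at this
      rw [mul_comm]
      exact le_of_mul_le_mul_right this e
  have h1 : |∑' r, ρ r * T r| ≤ ∑' r, ρ r * |T r| :=
    tsum_of_norm_bounded (f := fun r => ρ r * T r) h2.hasSum fun r => by
      rw [Real.norm_eq_abs, abs_mul, abs_of_nonneg (h0 r)]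
  exact (pow_le_pow_left₀ (abs_nonneg _) h1 _).trans (le_of_tendsto' (h2.hasSum.pow _) h3)

/-- **Hölder's inequality with `q + 1` clones**, unnormalised; `φ ≥ 0` or `q + 1` even -/
theorem clone_holder {ι : Type*} [Fintype ι] {q : ℕ} (hq : Fintype.card ι = q + 1)
    (h0 : ∀ r, 0 ≤ ρ r) (hs : Summable ρ) {φ : R → V → ℝ}
    (hφ : Even (q + 1) ∨ ∀ r v, 0 ≤ κ r v * φ r v)
    (s1 : Summable fun p : R × V => ρ p.1 * (κ p.1 p.2 * φ p.1 p.2))
    (s2 : Summable fun p : R × (ι → V) => ρ p.1 * ∏ i, κ p.1 (p.2 i) * φ p.1 (p.2 i)) :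
    |∑' p : R × V, ρ p.1 * (κ p.1 p.2 * φ p.1 p.2)| ^ (q + 1) ≤ (∑' r, ρ r) ^ q *
      ∑' p : R × (ι → V), ρ p.1 * ∏ i, κ p.1 (p.2 i) * φ p.1 (p.2 i) := by
  set T : R → ℝ := fun r => ∑' v, κ r v * φ r v with hT
  have e2 : ∀ r, ∑' v : ι → V, ρ r * ∏ i, κ r (v i) * φ r (v i) = ρ r * |T r| ^ (q + 1) := fun r => by
    rcases (h0 r).eq_or_lt with e | e
    · simp [← e]
    · have := (s1.prod_factor r).mul_left (ρ r)⁻¹
      simp only [inv_mul_cancel_left₀ e.ne'] at this
      rw [tsum_mul_left, (hasSum_pi_prod (fun (_ : ι) v => κ r v * φ r v) fun _ => this).tsum_eq,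
        prod_const, card_univ, hq]
      rcases hφ with c | c
      · rw [c.pow_abs]
      · rw [abs_of_nonneg (tsum_nonneg (c r))]
  have s3 := s2.prod
  simp only [e2] at s3
  rw [s1.tsum_prod, s2.tsum_prod]
  simp only [e2, tsum_mul_left]
  exact tsum_jensen h0 hs s3

end Crest.Agent.N49.Gw
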