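import Mathlib

/-!
# Row 49 (helper31): clone additivity as a chain lemma, Cauchy-Schwarz with clones on infinite sums
-/

set_option autoImplicit false
open scoped ComplexConjugate

namespace Crest.Agent.N49.Gw

/-- functions with values in `[0,1]` -/
def U1 {W : Type*} (f : W → ℝ) : Prop := ∀ w, 0 ≤ f w ∧ f w ≤ 1

/-- a sub-probability mean on `[0,1]`-valued functions -/
structure Mn {W : Type*} (E : (W → ℝ) → ℝ) : Prop where
  mono : ∀ {f g : W → ℝ}, U1 f → U1 g → (∀ w, f w ≤ g w) → E f ≤ E g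
  add : ∀ {f g : W → ℝ}, U1 f → U1 g → U1 (fun w => f w + g w) →
    E (fun w => f w + g w) ≤ E f + E g
  smul : ∀ {f : W → ℝ} {c : ℝ}, U1 f → 0 ≤ c → c ≤ 1 → E (fun w => c * f w) = c * E f
  one : E (fun _ => 1) ≤ 1

section
variable {W Y : Type*} {E : (W → ℝ) → ℝ} {f g : W → ℝ}

theorem U1.one : U1 fun _ : W => (1 : ℝ) := fun _ => ⟨zero_le_one, le_rfl⟩

theorem U1.mul (h : U1 f) (k : U1 g) : U1 fun w => f w * g w :=
  fun w => ⟨mul_nonneg (h w).1 (k w).1, mul_le_one₀ (h w).2 (k w).1 (k w).2⟩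

theorem U1.const {c : ℝ} (h0 : 0 ≤ c) (h1 : c ≤ 1) : U1 fun _ : W => c := fun _ => ⟨h0, h1⟩

theorem U1.ind (S : Set W) : U1 (S.indicator 1) := fun w => by
  by_cases h : w ∈ S <;> simp [h]

theorem U1.comp (h : U1 f) (π : Y → W) : U1 fun y => f (π y) := fun y => h (π y)

theorem Mn.u1 (hE : Mn E) (h : U1 f) : 0 ≤ E f ∧ E f ≤ 1 := by
  refine ⟨?_, (hE.mono h U1.one fun w => (h w).2).trans hE.one⟩
  have := hE.smul h le_rfl zero_le_one
  rw [zero_mul] at this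
  exact this.ge.trans (hE.mono ((U1.const le_rfl zero_le_one).mul h) h fun w => by
    rw [zero_mul]; exact (h w).1)

/-- weighted sums are means -/
theorem Mn.tsum {ρ : Y → ℝ} (h0 : ∀ y, 0 ≤ ρ y) (hs : Summable ρ) (h1 : ∑' y, ρ y ≤ 1)
    (π : Y → W) : Mn fun f : W → ℝ => ∑' y, ρ y * f (π y) := by
  have sm : ∀ {f : W → ℝ}, U1 f → Summable fun y => ρ y * f (π y) := fun h =>
    hs.of_nonneg_of_le (fun y => mul_nonneg (h0 y) (h _).1)
      fun y => mul_le_of_le_one_right (h0 y) (h _).2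
  refine ⟨fun h k l => (sm h).tsum_le_tsum (fun y => mul_le_mul_of_nonneg_left (l _) (h0 y)) (sm k),
    fun h k _ => ?_, fun _ _ _ => ?_, by simpa using h1⟩
  · simp only [mul_add]; exact ((sm h).tsum_add (sm k)).le
  · simp only [mul_left_comm, tsum_mul_left]

open MeasureTheory in
/-- integrals over discrete spaces are means -/
theorem Mn.integral [MeasurableSpace Y] [DiscreteMeasurableSpace Y] (μ : Measure Y)
    [IsProbabilityMeasure μ] {ρ : Y → ℝ} (hρ : U1 ρ) (π : Y → W) :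
    Mn fun f : W → ℝ => ∫ y, ρ y * f (π y) ∂μ := by
  have sm : ∀ {f : W → ℝ}, U1 f → Integrable (fun y => ρ y * f (π y)) μ := fun h =>
    (integrable_const (1 : ℝ)).mono' Measurable.of_discrete.aestronglyMeasurable
      (.of_forall fun y => by
        have := hρ.mul (h.comp π) y
        rw [Real.norm_of_nonneg this.1]; exact this.2)
  refine ⟨fun h k l => integral_mono (sm h) (sm k) fun y => mul_le_mul_of_nonneg_left (l _) (hρ y).1,
    fun h k _ => ?_, fun _ _ _ => ?_, ?_⟩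
  · simp only [mul_add]; exact (integral_add (sm h) (sm k)).le
  · simp only [mul_left_comm, integral_const_mul]
  · refine (integral_mono (sm U1.one) (integrable_const 1) fun y => ?_).trans (by simp)
    rw [mul_one]; exact (hρ y).2

/-- the probability that the last `j` transitions of the chain are good -/
def ch (K : ℕ → W → (W → ℝ) → ℝ) : ℕ → W → ℝ
  | 0 => fun _ => 1
  | j + 1 => fun w => K j w (ch K j)

theorem ch_u1 {K : ℕ → W → (W → ℝ) → ℝ} {Q : ℕ} (hK : ∀ j < Q, ∀ w, Mn (K j w)) :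
    ∀ j ≤ Q, U1 (ch K j)
  | 0, _ => U1.one
  | j + 1, h => fun w => (hK j h w).u1 (ch_u1 hK j (Nat.le_of_succ_le h))

/-- **ADD**: if every subset of `A` of mass `≥ s` has good transitions to itself with mass `≥ γ`, then
whole chains are good -/
theorem add_chain (hE : Mn E) {K : ℕ → W → (W → ℝ) → ℝ} {Q : ℕ} (hK : ∀ j < Q, ∀ w, Mn (K j w))
    {A : Set W} {s γ : ℝ} (hs : 0 < s) (hγ : 0 < γ)
    (hR : ∀ j < Q, ∀ S ⊆ A, s ≤ E (S.indicator 1) →
      γ ≤ E fun w => S.indicator 1 w * K j w (S.indicator 1)) :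
    ∀ j ≤ Q, ∀ S ⊆ A, (j + 1) * s ≤ E (S.indicator 1) →
      s * (γ / 2) ^ j ≤ E fun w => S.indicator 1 w * ch K j w := by
  intro j
  induction j with
  | zero => intro _ S _ h; simpa [ch] using h
  | succ j ih =>
    intro hj S hS h
    have hj' : j ≤ Q := Nat.le_of_succ_le hj
    set t := s * (γ / 2) ^ j with ht
    have t0 : 0 < t := by positivity
    have hu := ch_u1 hK j hj'
    have j0 : (0 : ℝ) ≤ j := j.cast_nonneg
    push_cast at h
    have t1 : t ≤ 1 := (ih hj' S hS (by nlinarith)).trans (hE.u1 ((U1.ind S).mul hu)).2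
    have c0 : 0 ≤ t / 2 := by positivity
    have c1 : t / 2 ≤ 1 := by linarith
    set B := S ∩ {w | ch K j w < t / 2} with hB
    set G := S \ {w | ch K j w < t / 2} with hG
    have b1 : E (B.indicator 1) < (j + 1) * s := by
      by_contra hc
      have a1 := ih hj' B (Set.inter_subset_left.trans hS) (not_lt.1 hc)
      have a2 : E (fun w => B.indicator 1 w * ch K j w) ≤ E fun _ => t / 2 * 1 :=
        hE.mono ((U1.ind B).mul hu) ((U1.const c0 c1).mul U1.one) fun w => by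
          by_cases hw : w ∈ B
          · simpa [hw] using hw.2.le
          · simpa [hw] using c0
      rw [hE.smul U1.one c0 c1] at a2
      nlinarith [hE.one]
    have e1 : S.indicator (1 : W → ℝ) = fun w => B.indicator 1 w + G.indicator 1 w := by
      funext w
      by_cases h1 : w ∈ S <;> by_cases h2 : ch K j w < t / 2 <;> simp [hB, hG, h1, h2]
    have b2 : s ≤ E (G.indicator 1) := by
      have := hE.add (U1.ind B) (U1.ind G) (e1 ▸ U1.ind S)
      rw [← e1] at this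
      linarith
    have b3 := hR j hj G (Set.sdiff_subset.trans hS) b2
    have hKG : U1 fun w => K j w (G.indicator 1) := fun w => (hK j hj w).u1 (U1.ind G)
    calc s * (γ / 2) ^ (j + 1) = t / 2 * γ := by rw [ht]; ring
      _ ≤ t / 2 * E fun w => G.indicator 1 w * K j w (G.indicator 1) := by gcongr
      _ = _ := (hE.smul ((U1.ind G).mul hKG) c0 c1).symm
      _ ≤ _ := hE.mono ((U1.const c0 c1).mul ((U1.ind G).mul hKG))
          ((U1.ind S).mul (ch_u1 hK (j + 1) hj)) fun w => by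
        by_cases hw : w ∈ G
        · simp only [Set.indicator_of_mem hw, Set.indicator_of_mem hw.1, Pi.one_apply, one_mul, ch]
          rw [← (hK j hj w).smul (U1.ind G) c0 c1]
          refine (hK j hj w).mono ((U1.const c0 c1).mul (U1.ind G)) hu fun v => ?_
          by_cases hv : v ∈ G
          · simpa [hv] using not_lt.1 hv.2
          · simpa [hv] using (hu v).1
        · simpa [hw] using ((U1.ind S).mul (ch_u1 hK (j + 1) hj) w).1

end

section cs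
variable {R V : Type*} {ρ : R → ℝ} {κ : R → V → ℝ}

/-- a bounded function against a summable weight -/
theorem sum_bdd {Y : Type*} {w : Y → ℝ} (h0 : ∀ y, 0 ≤ w y) (hs : Summable w) {φ : Y → ℂ} {B : ℝ}
    (hφ : ∀ y, ‖φ y‖ ≤ B) : Summable fun y => (w y : ℂ) * φ y :=
  .of_norm_bounded (hs.mul_right B) fun y => by
    rw [norm_mul, Complex.norm_real, Real.norm_of_nonneg (h0 y)]
    exact mul_le_mul_of_nonneg_left (hφ y) (h0 y)

/-- Cauchy-Schwarz for infinite weighted sums -/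
theorem tsum_cs (h0 : ∀ r, 0 ≤ ρ r) (hs : Summable ρ) {a F : R → ℂ} (ha : ∀ r, ‖a r‖ ≤ 1)
    (hF : Summable fun r => ρ r * ‖F r‖ ^ 2) :
    ‖∑' r, (ρ r : ℂ) * (a r * F r)‖ ^ 2 ≤ (∑' r, ρ r) * ∑' r, ρ r * ‖F r‖ ^ 2 := by
  have h1 : ∀ r, ‖(ρ r : ℂ) * (a r * F r)‖ ≤ ρ r * ‖F r‖ := fun r => by
    rw [norm_mul, Complex.norm_real, Real.norm_of_nonneg (h0 r), norm_mul]
    exact mul_le_mul_of_nonneg_left (mul_le_of_le_one_left (norm_nonneg _) (ha r)) (h0 r)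
  have h2 : Summable fun r => ρ r * ‖F r‖ :=
    (hs.add hF).of_nonneg_of_le (fun r => mul_nonneg (h0 r) (norm_nonneg _)) fun r => by
      nlinarith [h0 r, mul_nonneg (h0 r) (sq_nonneg (‖F r‖ - 1)), mul_nonneg (h0 r) (norm_nonneg (F r))]
  have h3 : ∀ s : Finset R, (∑ r ∈ s, ρ r * ‖F r‖) ^ 2 ≤ (∑' r, ρ r) * ∑' r, ρ r * ‖F r‖ ^ 2 :=
    fun s => (Finset.sum_sq_le_sum_mul_sum_of_sq_le_mul s (fun r _ => h0 r)
      (fun r _ => mul_nonneg (h0 r) (sq_nonneg _)) fun r _ => le_of_eq (by ring)).trans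
      (mul_le_mul (hs.sum_le_tsum s fun r _ => h0 r)
        (hF.sum_le_tsum s fun r _ => mul_nonneg (h0 r) (sq_nonneg _))
        (Finset.sum_nonneg fun r _ => mul_nonneg (h0 r) (sq_nonneg _)) (tsum_nonneg h0))
  refine (pow_le_pow_left₀ (norm_nonneg _) (tsum_of_norm_bounded h2.hasSum h1) 2).trans ?_
  exact le_of_tendsto' (h2.hasSum.pow 2) h3

/-- the square of a fibre sum is the sum over two clones -/
theorem normSq_tsum {w : V → ℝ} (h0 : ∀ v, 0 ≤ w v) (hs : Summable w) {φ : V → ℂ} {B : ℝ}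
    (hφ : ∀ v, ‖φ v‖ ≤ B) : ((‖∑' v, (w v : ℂ) * φ v‖ ^ 2 : ℝ) : ℂ) =
      ∑' p : V × V, ((w p.1 * w p.2 : ℝ) : ℂ) * (φ p.1 * conj (φ p.2)) := by
  have s1 := sum_bdd h0 hs hφ
  have s2 := sum_bdd h0 hs (φ := fun v => conj (φ v)) (B := B) fun v => by
    rw [Complex.norm_conj]; exact hφ v
  rw [Complex.ofReal_pow, ← Complex.mul_conj', Complex.conj_tsum]
  simp only [map_mul, Complex.conj_ofReal]
  rw [tsum_mul_tsum_of_summable_norm s1.norm s2.norm]
  exact tsum_congr fun p => by push_cast; ring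

/-- **Cauchy-Schwarz with a cloned variable**, unnormalised -/
theorem clone_cs (h0 : ∀ r, 0 ≤ ρ r) (hs : Summable ρ) (k0 : ∀ r v, 0 ≤ κ r v)
    (s1 : Summable fun p : R × V => ρ p.1 * κ p.1 p.2)
    (s2 : Summable fun p : R × V × V => ρ p.1 * (κ p.1 p.2.1 * κ p.1 p.2.2))
    {a : R → ℂ} {φ : R → V → ℂ} (ha : ∀ r, ‖a r‖ ≤ 1) (hφ : ∀ r v, ‖φ r v‖ ≤ 1) :
    ‖∑' p : R × V, ((ρ p.1 * κ p.1 p.2 : ℝ) : ℂ) * (a p.1 * φ p.1 p.2)‖ ^ 2 ≤ (∑' r, ρ r) *
      (∑' p : R × V × V, ((ρ p.1 * (κ p.1 p.2.1 * κ p.1 p.2.2) : ℝ) : ℂ) *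
        (φ p.1 p.2.1 * conj (φ p.1 p.2.2))).re := by
  have n1 : ∀ p : R × V, 0 ≤ ρ p.1 * κ p.1 p.2 := fun p => mul_nonneg (h0 _) (k0 _ _)
  have n2 : ∀ p : R × V × V, 0 ≤ ρ p.1 * (κ p.1 p.2.1 * κ p.1 p.2.2) :=
    fun p => mul_nonneg (h0 _) (mul_nonneg (k0 _ _) (k0 _ _))
  have t1 := sum_bdd n1 s1 (φ := fun p => a p.1 * φ p.1 p.2) (B := 1) fun p => by
    rw [norm_mul]; exact mul_le_one₀ (ha _) (norm_nonneg _) (hφ _ _)
  have t2 := sum_bdd n2 s2 (φ := fun p => φ p.1 p.2.1 * conj (φ p.1 p.2.2)) (B := 1) fun p => by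
    rw [norm_mul, Complex.norm_conj]; exact mul_le_one₀ (hφ _ _) (norm_nonneg _) (hφ _ _)
  set F : R → ℂ := fun r => ∑' v, (κ r v : ℂ) * φ r v with hF
  have e2 : ∀ r, ∑' q : V × V, ((ρ r * (κ r q.1 * κ r q.2) : ℝ) : ℂ) * (φ r q.1 * conj (φ r q.2)) =
      ((ρ r * ‖F r‖ ^ 2 : ℝ) : ℂ) := fun r => by
    rcases (h0 r).eq_or_lt with e | e
    · simp [← e]
    · have := (s1.prod_factor r).mul_left (ρ r)⁻¹
      simp only [inv_mul_cancel_left₀ e.ne'] at this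
      rw [Complex.ofReal_mul, normSq_tsum (k0 r) this (hφ r), ← tsum_mul_left]
      exact tsum_congr fun q => by push_cast; ring
  have s3 := t2.prod
  simp only [e2] at s3
  rw [t1.tsum_prod, t2.tsum_prod]
  simp only [e2]
  rw [← Complex.ofReal_tsum, Complex.ofReal_re]
  refine le_of_eq_of_le ?_ (tsum_cs h0 hs ha (F := F) (Complex.summable_ofReal.1 s3))
  congr 2
  refine tsum_congr fun r => ?_
  rw [hF, ← tsum_mul_left, ← tsum_mul_left]
  exact tsum_congr fun v => by push_cast; ring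

/-- **RECT**: the box Cauchy-Schwarz inequality with a background variable, unnormalised -/
theorem box_cs {U : Type*} {μ : R → U → ℝ} (h0 : ∀ r, 0 ≤ ρ r) (m0 : ∀ r u, 0 ≤ μ r u)
    (k0 : ∀ r v, 0 ≤ κ r v) (s1 : Summable fun p : R × U => ρ p.1 * μ p.1 p.2)
    (s2 : Summable fun p : (R × U) × V => ρ p.1.1 * μ p.1.1 p.1.2 * κ p.1.1 p.2)
    (s3 : Summable fun p : R × V × V => ρ p.1 * (κ p.1 p.2.1 * κ p.1 p.2.2))
    (s4 : Summable fun p : (R × V × V) × U =>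
      ρ p.1.1 * (κ p.1.1 p.1.2.1 * κ p.1.1 p.1.2.2) * μ p.1.1 p.2)
    (s5 : Summable fun p : (R × V × V) × U × U =>
      ρ p.1.1 * (κ p.1.1 p.1.2.1 * κ p.1.1 p.1.2.2) * (μ p.1.1 p.2.1 * μ p.1.1 p.2.2))
    {a : R → U → ℂ} {b : R → V → ℂ} {φ : R → U → V → ℂ} (ha : ∀ r u, ‖a r u‖ ≤ 1)
    (hb : ∀ r v, ‖b r v‖ ≤ 1) (hφ : ∀ r u v, ‖φ r u v‖ ≤ 1) :
    ‖∑' p : (R × U) × V, ((ρ p.1.1 * μ p.1.1 p.1.2 * κ p.1.1 p.2 : ℝ) : ℂ) *
        (a p.1.1 p.1.2 * (b p.1.1 p.2 * φ p.1.1 p.1.2 p.2))‖ ^ 4 ≤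
      (∑' p : R × U, ρ p.1 * μ p.1 p.2) ^ 2 *
      ((∑' p : R × V × V, ρ p.1 * (κ p.1 p.2.1 * κ p.1 p.2.2)) *
      (∑' p : (R × V × V) × U × U, ((ρ p.1.1 * (κ p.1.1 p.1.2.1 * κ p.1.1 p.1.2.2) *
        (μ p.1.1 p.2.1 * μ p.1.1 p.2.2) : ℝ) : ℂ) *
        (φ p.1.1 p.2.1 p.1.2.1 * conj (φ p.1.1 p.2.1 p.1.2.2) *
          conj (φ p.1.1 p.2.2 p.1.2.1 * conj (φ p.1.1 p.2.2 p.1.2.2)))).re) := by
  let e : (R × V × V) × U ≃ (R × U) × V × V :=
    ⟨fun p => ((p.1.1, p.2), p.1.2), fun p => ((p.1.1, p.2), p.1.2), fun _ => rfl, fun _ => rfl⟩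
  have n : ∀ {x y : ℂ}, ‖x‖ ≤ 1 → ‖y‖ ≤ 1 → ‖x * conj y‖ ≤ 1 := fun hx hy => by
    rw [norm_mul, Complex.norm_conj]; exact mul_le_one₀ hx (norm_nonneg _) hy
  have c1 := clone_cs (ρ := fun p : R × U => ρ p.1 * μ p.1 p.2) (κ := fun p v => κ p.1 v)
    (fun p => mul_nonneg (h0 _) (m0 _ _)) s1 (fun p v => k0 _ _) s2
    (e.summable_iff.1 (s4.congr fun p => by simp only [e, Function.comp, Equiv.coe_fn_mk]; ring))
    (a := fun p => a p.1 p.2) (φ := fun p v => b p.1 v * φ p.1 p.2 v) (fun p => ha _ _) fun p v => by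
      rw [norm_mul]; exact mul_le_one₀ (hb _ _) (norm_nonneg _) (hφ _ _ _)
  have c2 := clone_cs (ρ := fun p : R × V × V => ρ p.1 * (κ p.1 p.2.1 * κ p.1 p.2.2))
    (κ := fun p u => μ p.1 u) (fun p => mul_nonneg (h0 _) (mul_nonneg (k0 _ _) (k0 _ _))) s3
    (fun p v => m0 _ _) s4 s5 (a := fun p => b p.1 p.2.1 * conj (b p.1 p.2.2))
    (φ := fun p u => φ p.1 u p.2.1 * conj (φ p.1 u p.2.2)) (fun p => n (hb _ _) (hb _ _))
    fun p u => n (hφ _ _ _) (hφ _ _ _)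
  rw [← e.tsum_eq] at c1
  rw [show 4 = 2 * 2 from rfl, pow_mul]
  refine (pow_le_pow_left₀ (sq_nonneg _) (c1.trans (mul_le_mul_of_nonneg_left (Complex.re_le_norm _)
    (tsum_nonneg fun p => mul_nonneg (h0 _) (m0 _ _)))) 2).trans ?_
  rw [mul_pow]
  refine mul_le_mul_of_nonneg_left (le_of_eq_of_le ?_ c2) (sq_nonneg _)
  congr 2
  refine tsum_congr fun p => ?_
  simp only [e, Equiv.coe_fn_mk, map_mul]
  push_cast; ring

end cs

end Crest.Agent.N49.Gw
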