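import Crest.Agent.N49.Rm.Fb
import Crest.Agent.N49.Rm.Pr
/-! Row 49 (helper31): a biased fibre carries a relation (`BR`). -/
set_option autoImplicit false
set_option linter.unusedSectionVars false
noncomputable section
namespace Crest.Agent.N49.Rm
open Finset Matrix Po

variable {L C : Type} [Fintype L] [DecidableEq L] [Fintype C] [DecidableEq C]
namespace TT
variable (T : TT L C)

/-- the frequency of a form on the block of `x` -/
def fq (x : L) (F : Fm L C) (y : C → ℤ) : T.Bl x → ℝ :=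
  fun c => F (T.jr x (cf y) (Pi.single c 1) 0)
/-- the bias of `e(F)` on the `x`-fibre over `y` -/
def fbi (x : L) (F : Fm L C) (y : C → ℤ) : ℝ :=
  ‖thc (T.Mm x y) (T.ce x y) (T.fq x F y)‖ / th (T.Mm x y) (T.ce x y)

variable {T} {x : L} {F : Fm L C} {y : C → ℤ} {A : Finset L}

theorem fbi_nonneg : 0 ≤ T.fbi x F y := div_nonneg (norm_nonneg _) (th_nonneg _ _)

theorem Ok.fbi_le (h : T.Ok) : T.fbi x F y ≤ 1 :=
  (div_le_one (th_pos (h.Mm_pd x y) _)).2 (norm_thc_le_th (h.Mm_pd x y) _ _)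

theorem fq_congr {y' : C → ℤ} (e : ∀ c, x ∉ T.ty c → y c = y' c) : T.fq x F y = T.fq x F y' := by
  funext c; simp only [fq, jr_congr (cf_congr e)]

theorem fbi_congr {y' : C → ℤ} (e : ∀ c, x ∉ T.ty c → y c = y' c) :
    T.fbi x F y = T.fbi x F y' := by
  rw [fbi, fbi, fq_congr e, Mm_congr e, ce_congr e]

theorem Lin.jn (hF : T.Lin x F) (y : C → ℤ) (n : T.Bl x → ℤ) :
    F (cf (T.jn x y n)) = T.fq x F y ⬝ᵥ zc n + F (T.jr x (cf y) 0 1) := by
  rw [cf_jn, hF.expand, one_mul]; rfl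

theorem Ok.tsum_jn (h : T.Ok) (x : L) (y : C → ℤ) :
    ∑' n, T.wt (T.jn x y n) = T.wr x y * th (T.Mm x y) (T.ce x y) := by
  simp only [h.wt_jn, tsum_mul_left, th]

theorem Ok.tsum_ee (h : T.Ok) (hF : T.Lin x F) (y : C → ℤ) :
    ∑' n, (T.wt (T.jn x y n) : ℂ) * ee (F (cf (T.jn x y n))) =
      T.wr x y * ee (F (T.jr x (cf y) 0 1)) * thc (T.Mm x y) (T.ce x y) (T.fq x F y) := by
  rw [thc, ← tsum_mul_left]
  refine tsum_congr fun n => ?_
  rw [h.wt_jn, hF.jn, ee_add]; push_cast; ring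

/-- the meaning of `fbi` -/
theorem Ok.fbi_eq (h : T.Ok) (hF : T.Lin x F) (y : C → ℤ) :
    ‖∑' n, (T.wt (T.jn x y n) : ℂ) * ee (F (cf (T.jn x y n)))‖ =
      T.fbi x F y * ∑' n, T.wt (T.jn x y n) := by
  have := (th_pos (h.Mm_pd x y) (T.ce x y)).ne'
  rw [h.tsum_ee hF, h.tsum_jn, norm_mul, norm_mul, norm_ee, Complex.norm_real,
    Real.norm_of_nonneg (wr_pos x y).le, fbi]
  field_simp

/-- a frequency close to the dual lattice is a relation -/
theorem Ok.rel_of_dual (h : T.Ok) (hA : ∀ c, x ∈ T.ty c → T.ty c ⊆ A) (hF : T.Lin x F)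
    {m : T.Bl x → ℤ} {B : ℝ} (hB : 0 ≤ B)
    (hm : Fintype.card (T.Bl x) * qf (T.Mm x y)⁻¹ (zc m - T.fq x F y) ≤ B ^ 2) :
    T.Rel A {x} y 1 B F := by
  refine ⟨fun p => ∑ c : T.Bl x, (m c : ℝ) * p (.inl c.1),
    ⟨⟨fun p p' b => sum_congr rfl fun c _ => by rw [b (.inl c.1) (hA _ c.2) ⟨x, c.2⟩],
      fun ℓ l s t p p' _ => ?_⟩, fun p _ i => ?_⟩, fun p b k => ?_⟩
  · rw [mem_singleton.1 l, mul_sum, mul_sum, ← sum_add_distrib]
    refine sum_congr rfl fun c _ => ?_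
    rw [cmb, if_pos (show x ∈ T.tv (.inl c.1) from c.2)]; ring
  · choose f hf using i
    exact ⟨∑ c : T.Bl x, m c * f (.inl c.1), by simp [hf]⟩
  · have e := h.sum_sq x y (fun c => p (.inl c.1)) 0
    rw [← eq_jr_of_fib b, zero_smul, sub_zero] at e
    have e2 : qf (T.Mm x y) (fun c => p (.inl c.1)) ≤ Fintype.card (T.Bl x) := by
      rw [← e]
      refine (sum_le_card_nsmul _ _ 1 fun c _ => ?_).trans (by simp)
      exact (sq_le_one_iff_abs_le_one _).2 (k c.1 (hA _ c.2) (by simpa using c.2))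
    have e3 := dual_sq_le (h.Mm_pd x y) (fun c => p (.inl c.1)) (zc m - T.fq x F y)
    have e4 : F p = T.fq x F y ⬝ᵥ fun c => p (.inl c.1) := by
      conv_lhs => rw [eq_jr_of_fib b, hF.expand, zero_mul, add_zero]
      rfl
    have e5 : F p - (∑ c : T.Bl x, (m c : ℝ) * p (.inl c.1)) / (1 : ℕ) =
        -((zc m - T.fq x F y) ⬝ᵥ fun c => p (.inl c.1)) := by
      rw [e4, sub_dotProduct, Nat.cast_one, div_one, neg_sub]; rfl
    beta_reduce
    rw [e5, abs_neg]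
    refine abs_le.2 (abs_le_of_sq_le_sq' (e3.trans (le_trans ?_ hm)) hB)
    rw [mul_comm]
    exact mul_le_mul_of_nonneg_right e2 (qf_nonneg (h.Mm_pd x y).inv _)

theorem Ok.rel_of_thc (h : T.Ok) (hA : ∀ c, x ∈ T.ty c → T.ty c ⊆ A) (hF : T.Lin x F)
    {θ : T.Bl x → ℝ} {R B : ℝ} (hB : 0 ≤ B) (hR : Fintype.card (T.Bl x) * R ≤ B ^ 2)
    (hb : bz (T.Bl x) R * th (T.Mm x y) 0 < ‖thc (T.Mm x y) θ (T.fq x F y)‖) :
    T.Rel A {x} y 1 B F := by
  obtain ⟨m, hm⟩ := exists_dual (h.Mm_pd x y) hb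
  exact h.rel_of_dual hA hF hB
    ((mul_le_mul_of_nonneg_left hm.le (Nat.cast_nonneg _)).trans hR)

/-- smooth fibres: the theta values are comparable -/
theorem Ok.th_cmp (h : T.Ok) {R : ℝ} (hR : 0 ≤ R) (u : T.UQ univ {x} y R)
    (hc : (Fintype.card C : ℝ) * (Fintype.card C + 3) ≤ R ^ 2) (θ : T.Bl x → ℝ) :
    |th (T.Mm x y) θ - dt (T.Mm x y)| ≤ 1 / 8 * dt (T.Mm x y) := by
  have c1 : (Fintype.card (T.Bl x) : ℝ) ≤ Fintype.card C := by
    exact_mod_cast Fintype.card_subtype_le _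
  have c0 : (0 : ℝ) ≤ Fintype.card (T.Bl x) := Nat.cast_nonneg _
  have b1 : bz (T.Bl x) (Fintype.card C + 3) ≤ 1 / 16 := by
    refine (bz_le (L := 3) (by linarith) (by norm_num)).trans ?_
    rw [Real.exp_neg, ← one_div]
    refine one_div_le_one_div_of_le (by norm_num) ?_
    have := Real.exp_one_gt_d9
    have e : Real.exp 3 = Real.exp 1 ^ 3 := by rw [Real.exp_one_pow]; norm_num
    rw [e]
    calc (16 : ℝ) ≤ 2.7 ^ 3 := by norm_num
      _ ≤ _ := by gcongr; linarith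
  refine (smooth_short (h.Mm_pd x y) (R := Fintype.card C + 3) (fun m m0 => ?_) (by linarith) θ).trans
    (mul_le_mul_of_nonneg_right (by linarith) (dt_pos (h.Mm_pd x y)).le)
  have k := h.dual_min hR u m0
  have q0 := qf_nonneg (h.Mm_pd x y).inv (zc m)
  by_contra a
  push Not at a
  nlinarith [mul_le_mul c1 a.le q0 (c0.trans c1)]

/-- **BR, one fibre** -/
theorem Ok.rel_of_fbi (h : T.Ok) (hA : ∀ c, x ∈ T.ty c → T.ty c ⊆ A) (hF : T.Lin x F)
    {R l B : ℝ} (hR : 0 ≤ R) (u : T.UQ univ {x} y R)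
    (hc : (Fintype.card C : ℝ) * (Fintype.card C + 3) ≤ R ^ 2) (hl : 0 ≤ l)
    (hB : Fintype.card C + l ≤ B) (hb : 2 * Real.exp (-l) ≤ T.fbi x F y) :
    T.Rel A {x} y 1 B F := by
  have c1 : (Fintype.card (T.Bl x) : ℝ) ≤ Fintype.card C := by
    exact_mod_cast Fintype.card_subtype_le _
  have c0 : (0 : ℝ) ≤ Fintype.card (T.Bl x) := Nat.cast_nonneg _
  have p := h.Mm_pd x y
  refine h.rel_of_thc hA hF (θ := T.ce x y) (R := B) (by linarith) (by nlinarith) ?_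
  have t0 := abs_le.1 (h.th_cmp hR u hc 0)
  have t1 := abs_le.1 (h.th_cmp hR u hc (T.ce x y))
  have d0 := dt_pos p
  have b1 : bz (T.Bl x) B ≤ Real.exp (-l) := bz_le (by linarith) hl
  rw [fbi, le_div_iff₀ (th_pos p _)] at hb
  have e0 := Real.exp_pos (-l)
  refine lt_of_lt_of_le ?_ hb
  calc _ ≤ Real.exp (-l) * th (T.Mm x y) 0 := mul_le_mul_of_nonneg_right b1 (th_nonneg _ _)
    _ < _ := by nlinarith

/-- **BR, mass form**: a weight `g ≤ 1` carried by `H` and dominated by the biases -/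
theorem Ok.pr_rel (h : T.Ok) (hA : ∀ c, x ∈ T.ty c → T.ty c ⊆ A) {D : Type} {G : D → Fm L C}
    (hG : ∀ d, T.Lin x (G d)) {b n m : ℕ} (s : T.SM b) (hc : Fintype.card C ≤ 2 ^ n)
    (hb : n + 2 ≤ b) (hm : m + 2 ≤ b) {H : Set (C → ℤ)} {g : (C → ℤ) → ℝ} (g0 : ∀ y, 0 ≤ g y)
    (g1 : ∀ y, g y ≤ 1) (gH : ∀ y, y ∉ H → g y = 0) (gb : ∀ y d, g y ≤ T.fbi x (G d) y)
    (hg : (1 / 2 : ℝ) ^ m ≤ T.Ex g) :
    (1 / 2 : ℝ) ^ (m + 2) ≤ T.pr {y | y ∈ H ∧ ∀ d, T.Rel A {x} y 1 (2 ^ n + m + 2) (G d)} := by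
  have m1 := h.markov' (fun y => ⟨g0 y, g1 y⟩) (t := (1 / 2 : ℝ) ^ (m + 1)) (by positivity)
  have u1 := (s x).1
  have u2 : (1 / 2 : ℝ) ^ b ≤ (1 / 2) ^ (m + 2) :=
    pow_le_pow_of_le_one (by norm_num) (by norm_num) hm
  have c1 : (Fintype.card C : ℝ) ≤ 2 ^ n := by exact_mod_cast hc
  have c2 : (1 : ℝ) ≤ 2 ^ n := one_le_pow₀ (by norm_num)
  have c3 : (2 : ℝ) ^ (n + 2) ≤ 2 ^ b := pow_le_pow_right₀ (by norm_num) hb
  have d := h.pr_diff {y | (1 / 2 : ℝ) ^ (m + 1) < g y} {y | ¬ T.UQ univ {x} y (2 ^ b)}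
  refine le_trans ?_ (d.trans (h.pr_mono fun y hy => ⟨?_, fun e => ?_⟩))
  · rw [pow_succ, pow_succ] at *; linarith
  · by_contra a
    have : (1 / 2 : ℝ) ^ (m + 1) < g y := hy.1
    rw [gH y a] at this
    exact absurd this (not_lt.2 (by positivity))
  · refine h.rel_of_fbi hA (hG e) (R := 2 ^ b) (l := m + 2) (by positivity) (not_not.1 hy.2) ?_
      (by positivity) (by linarith) (le_trans ?_ (hy.1.le.trans (gb y e)))
    · rw [pow_add] at c3
      nlinarith [(Nat.cast_nonneg (Fintype.card C) : (0 : ℝ) ≤ _)]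
    · have : Real.exp (-((m : ℝ) + 2)) ≤ (1 / 2) ^ (m + 2) := by
        rw [show -((m : ℝ) + 2) = ((m + 2 : ℕ) : ℝ) * (-1) by push_cast; ring, Real.exp_nat_mul]
        gcongr
        rw [Real.exp_neg, ← one_div]
        exact one_div_le_one_div_of_le (by norm_num) (by linarith [Real.add_one_le_exp 1])
      rw [pow_succ] at this; linarith

end TT
end Crest.Agent.N49.Rm
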