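import Mathlib

/-!
# Row 49 (helper31): Gowers norms on finite abelian groups

`U d f = ‖f‖_{U^{d+1}}^{2^{d+1}}`, defined by recursion on the multiplicative derivative `D h`.
-/

set_option autoImplicit false
open Finset
open scoped BigOperators ComplexConjugate

namespace Crest.Agent.N49.Gw

section gen

variable {ι : Type*} [Fintype ι]

theorem sq_expect_le (u : ι → ℝ) : (𝔼 i, u i) ^ 2 ≤ 𝔼 i, u i ^ 2 := by
  rcases isEmpty_or_nonempty ι with h | h
  · simp
  · simpa using expect_mul_sq_le_sq_mul_sq univ u fun _ => 1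

theorem pow_expect_le {u : ι → ℝ} (hu : ∀ i, 0 ≤ u i) (d : ℕ) :
    (𝔼 i, u i) ^ 2 ^ d ≤ 𝔼 i, u i ^ 2 ^ d := by
  induction d with
  | zero => simp
  | succ d ih =>
    simp only [pow_succ, pow_mul]
    exact (pow_le_pow_left₀ (pow_nonneg (expect_nonneg fun i _ => hu i) _) ih 2).trans
      (sq_expect_le _)

theorem norm_expect (u : ι → ℂ) : ‖𝔼 i, u i‖ ≤ 𝔼 i, ‖u i‖ := RCLike.norm_expect_le (K := ℂ)

theorem conj_expect (u : ι → ℂ) : conj (𝔼 i, u i) = 𝔼 i, conj (u i) := by
  simp [Fintype.expect_eq_sum_div_card]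

theorem normSq_expect (u : ι → ℂ) :
    ((‖𝔼 i, u i‖ ^ 2 : ℝ) : ℂ) = 𝔼 i, 𝔼 j, u i * conj (u j) := by
  rw [← Fintype.expect_mul_expect, ← conj_expect, Complex.mul_conj, Complex.normSq_eq_norm_sq]

/-- Cauchy-Schwarz against a bounded weight -/
theorem cs_bdd {g u : ι → ℂ} (hg : ∀ i, ‖g i‖ ≤ 1) :
    ‖𝔼 i, g i * u i‖ ^ 2 ≤ 𝔼 i, ‖u i‖ ^ 2 := by
  refine le_trans (pow_le_pow_left₀ (norm_nonneg _) ((norm_expect _).trans
    (expect_le_expect fun i _ => ?_)) 2) (sq_expect_le fun i => ‖u i‖)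
  rw [norm_mul]
  exact mul_le_of_le_one_left (norm_nonneg _) (hg i)

theorem expect_cons {M : Type*} [AddCommMonoid M] [Module ℚ≥0 M] {d : ℕ} (F : (Fin (d + 1) → ι) → M) :
    𝔼 h, F h = 𝔼 a, 𝔼 h : Fin d → ι, F (Fin.cons a h) := by
  rw [← expect_product', univ_product_univ]
  exact (Fintype.expect_equiv (Fin.consEquiv fun _ => ι) _ _ fun _ => rfl).symm

theorem expect_ins {M : Type*} [AddCommMonoid M] [Module ℚ≥0 M] {d : ℕ} (i : Fin (d + 1))
    (F : (Fin (d + 1) → ι) → M) :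
    𝔼 h, F h = 𝔼 h : Fin d → ι, 𝔼 a, F (i.insertNth a h) := by
  rw [expect_comm, ← expect_product', univ_product_univ]
  exact (Fintype.expect_equiv (Fin.insertNthEquiv (fun _ => ι) i) _ _ fun _ => rfl).symm

end gen

variable {G : Type*} [AddCommGroup G]

/-- multiplicative derivative -/
def D (h : G) (f : G → ℂ) : G → ℂ := fun x => f (x + h) * conj (f x)

/-- iterated multiplicative derivative -/
def Dv : {d : ℕ} → (Fin d → G) → (G → ℂ) → G → ℂ
  | 0, _, f => f
  | _ + 1, h, f => Dv (Fin.tail h) (D (h 0) f)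

/-- bounded by one -/
def B1 {X : Type*} (f : X → ℂ) : Prop := ∀ x, ‖f x‖ ≤ 1

theorem B1.D {f : G → ℂ} (hf : B1 f) (h : G) : B1 (D h f) := fun x => by
  rw [Gw.D, norm_mul, Complex.norm_conj]
  exact mul_le_one₀ (hf _) (norm_nonneg _) (hf _)

theorem B1.Dv {d : ℕ} {f : G → ℂ} (hf : B1 f) (h : Fin d → G) : B1 (Dv h f) := by
  induction d generalizing f with
  | zero => exact hf
  | succ d ih => exact ih (hf.D _) _

theorem D_comm (a b : G) (f : G → ℂ) : D a (D b f) = D b (D a f) := by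
  funext x
  simp only [D, map_mul, Complex.conj_conj, add_right_comm x a b]
  ring

theorem Dv_cons {d : ℕ} (a : G) (h : Fin d → G) (f : G → ℂ) :
    Dv (Fin.cons a h : Fin (d + 1) → G) f = Dv h (D a f) := by
  simp [Dv]

theorem Dv_D {d : ℕ} (a : G) (h : Fin d → G) (f : G → ℂ) : Dv h (D a f) = D a (Dv h f) := by
  induction d generalizing f with
  | zero => rfl
  | succ d ih => simp only [Dv]; rw [D_comm, ih]

theorem Dv_ins {d : ℕ} (i : Fin (d + 1)) (a : G) (h : Fin d → G) (f : G → ℂ) :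
    Dv (i.insertNth a h : Fin (d + 1) → G) f = D a (Dv h f) := by
  induction d generalizing f with
  | zero =>
    obtain rfl : i = 0 := Fin.eq_zero i
    simp [Dv]
  | succ d ih =>
    refine Fin.cases ?_ (fun j => ?_) i
    · rw [Fin.insertNth_zero', Dv_cons, Dv_D]
    · rw [← Fin.cons_self_tail h, Fin.insertNth_succ_cons, Dv_cons, Dv_cons, ih]

theorem D_shift (h a : G) (f : G → ℂ) : D h (fun x => f (a + x)) = fun x => D h f (a + x) := by
  funext x; simp [D, add_assoc]

variable [Fintype G]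

theorem expect_shift {M : Type*} [AddCommMonoid M] [Module ℚ≥0 M] (a : G) (F : G → M) :
    𝔼 x, F (a + x) = 𝔼 x, F x := Fintype.expect_equiv (Equiv.addLeft a) _ _ fun _ => rfl

theorem expect_shift' {M : Type*} [AddCommMonoid M] [Module ℚ≥0 M] (a : G) (F : G → M) :
    𝔼 x, F (x + a) = 𝔼 x, F x := Fintype.expect_equiv (Equiv.addRight a) _ _ fun _ => rfl

/-- `U d f` is the `2^(d+1)`-th power of the `U^{d+1}` norm -/
noncomputable def U : ℕ → (G → ℂ) → ℝ
  | 0, f => ‖𝔼 x, f x‖ ^ 2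
  | d + 1, f => 𝔼 h, U d (D h f)

theorem U_nonneg (d : ℕ) (f : G → ℂ) : 0 ≤ U d f := by
  induction d generalizing f with
  | zero => exact sq_nonneg _
  | succ d ih => exact expect_nonneg fun h _ => ih _

theorem U_le_one (d : ℕ) {f : G → ℂ} (hf : B1 f) : U d f ≤ 1 := by
  induction d generalizing f with
  | zero =>
    exact pow_le_one₀ (norm_nonneg _) ((norm_expect f).trans (expect_le univ_nonempty fun x _ => hf x))
  | succ d ih => exact expect_le univ_nonempty fun h _ => ih (hf.D h)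

theorem U_shift (d : ℕ) (a : G) (f : G → ℂ) : U d (fun x => f (a + x)) = U d f := by
  induction d generalizing f with
  | zero => simp only [U, expect_shift a f]
  | succ d ih => simp only [U, D_shift, ih]

theorem U_add (d e : ℕ) (f : G → ℂ) : U (e + d) f = 𝔼 h : Fin d → G, U e (Dv h f) := by
  induction d generalizing f with
  | zero => simp [Dv]
  | succ d ih =>
    rw [← add_assoc, U, expect_cons]
    simp only [ih, Dv_cons]

theorem U_zero_eq (f : G → ℂ) : (U 0 f : ℂ) = 𝔼 h, 𝔼 x, D h f x := by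
  rw [U, normSq_expect, expect_comm, expect_comm univ univ fun h x => D h f x]
  exact expect_congr rfl fun x _ => (expect_shift x fun y => f y * conj (f x)).symm

/-- the cube form of the Gowers norm -/
theorem U_eq (d : ℕ) (f : G → ℂ) : (U d f : ℂ) = 𝔼 h : Fin (d + 1) → G, 𝔼 x, Dv h f x := by
  have := U_add d 0 f
  rw [zero_add] at this
  rw [this, Complex.ofReal_expect, expect_ins 0]
  simp only [U_zero_eq, Dv_ins]

/-- monotonicity of the Gowers norms -/
theorem sq_U_le (d : ℕ) (f : G → ℂ) : U d f ^ 2 ≤ U (d + 1) f := by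
  induction d generalizing f with
  | zero =>
    have h1 : U 0 f ≤ 𝔼 h, ‖𝔼 x, D h f x‖ := by
      refine le_trans ?_ (norm_expect _)
      rw [← U_zero_eq, Complex.norm_real, Real.norm_of_nonneg (U_nonneg 0 f)]
    exact (pow_le_pow_left₀ (U_nonneg 0 f) h1 2).trans (sq_expect_le _)
  | succ d ih => exact (sq_expect_le _).trans (expect_le_expect fun h _ => ih _)

/-- **generalised von Neumann / box Cauchy-Schwarz**: `g j` does not depend on the coordinate `j` -/
theorem gvn (d : ℕ) (f : G → ℂ) (g : Fin (d + 1) → (Fin (d + 1) → G) → ℂ) (hb : ∀ j, B1 (g j))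
    (hg : ∀ j h a, g j (Function.update h j a) = g j h) :
    ‖𝔼 h : Fin (d + 1) → G, f (∑ i, h i) * ∏ j, g j h‖ ^ 2 ^ (d + 1) ≤ U d f := by
  have h0 : ∀ {d : ℕ} (g : (Fin (d + 1) → G) → ℂ), (∀ h a, g (Function.update h 0 a) = g h) →
      ∀ a h, g (Fin.cons a h) = g (Fin.cons 0 h) := fun g hg a h => by
    rw [← hg (Fin.cons 0 h) a, Fin.update_cons_zero]
  induction d generalizing f with
  | zero =>
    rw [expect_cons]
    simp only [Fin.sum_univ_succ, Fin.cons_zero, Fin.prod_univ_succ, univ_eq_empty, sum_empty,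
      prod_empty, add_zero, mul_one, h0 _ (hg 0), univ_unique, expect_singleton, zero_add,
      pow_one]
    rw [← expect_mul, norm_mul, mul_pow]
    exact mul_le_of_le_one_right (sq_nonneg _) (pow_le_one₀ (norm_nonneg _) (hb 0 _))
  | succ d ih =>
    set u : (Fin (d + 1) → G) → G → ℂ := fun h a =>
      f (a + ∑ i, h i) * ∏ j : Fin (d + 1), g j.succ (Fin.cons a h) with hu
    have e1 : 𝔼 h : Fin (d + 2) → G, f (∑ i, h i) * ∏ j, g j h =
        𝔼 h : Fin (d + 1) → G, g 0 (Fin.cons 0 h) * 𝔼 a, u h a := by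
      rw [expect_cons, expect_comm]
      refine expect_congr rfl fun h _ => ?_
      rw [mul_expect]
      refine expect_congr rfl fun a _ => ?_
      rw [Fin.sum_univ_succ, Fin.prod_univ_succ, h0 _ (hg 0)]
      simp only [hu, Fin.cons_zero, Fin.cons_succ]; ring
    set v : G → G → ℂ := fun k a => 𝔼 h : Fin (d + 1) → G, D k f (a + ∑ i, h i) *
      ∏ j : Fin (d + 1), (g j.succ (Fin.cons (a + k) h) * conj (g j.succ (Fin.cons a h))) with hv
    have e2 : ((𝔼 h, ‖𝔼 a, u h a‖ ^ 2 : ℝ) : ℂ) = 𝔼 k, 𝔼 a, v k a := by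
      rw [Complex.ofReal_expect, expect_comm univ univ v]
      simp only [normSq_expect, hv]
      rw [expect_comm]
      simp only [expect_comm (univ : Finset (Fin (d + 1) → G)) (univ : Finset G)]
      rw [expect_comm]
      refine expect_congr rfl fun a _ => ?_
      rw [← expect_shift a]
      refine expect_congr rfl fun k _ => expect_congr rfl fun h _ => ?_
      simp only [hu, D, map_mul, map_prod, prod_mul_distrib, add_right_comm a k]; ring
    have e3 : ∀ k a, ‖v k a‖ ^ 2 ^ (d + 1) ≤ U d (D k f) := fun k a => by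
      rw [← U_shift d a]
      refine ih (fun x => D k f (a + x)) _ (fun j h => ?_) fun j h b => ?_
      · rw [norm_mul, Complex.norm_conj]
        exact mul_le_one₀ (hb _ _) (norm_nonneg _) (hb _ _)
      · simp only [Fin.cons_update, hg]
    have e4 : 𝔼 h, ‖𝔼 a, u h a‖ ^ 2 ≤ 𝔼 k, 𝔼 a, ‖v k a‖ := by
      refine le_trans ?_ ((norm_expect _).trans (expect_le_expect fun k _ => norm_expect _))
      rw [← e2, Complex.norm_real]
      exact le_abs_self _
    rw [e1, pow_succ' 2, pow_mul]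
    calc _ ≤ (𝔼 k, 𝔼 a, ‖v k a‖) ^ 2 ^ (d + 1) :=
          pow_le_pow_left₀ (sq_nonneg _) ((cs_bdd fun h => hb 0 _).trans e4) _
      _ ≤ 𝔼 k, (𝔼 a, ‖v k a‖) ^ 2 ^ (d + 1) :=
          pow_expect_le (fun k => expect_nonneg fun _ _ => norm_nonneg _) _
      _ ≤ _ := expect_le_expect fun k _ => (pow_expect_le (fun _ => norm_nonneg _) _).trans
          (expect_le univ_nonempty fun a _ => e3 k a)

/-! ### Fourier coefficients -/

/-- Fourier coefficient -/
noncomputable def ft (f : G → ℂ) (γ : AddChar G ℂ) : ℂ := 𝔼 x, f x * conj (γ x)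

theorem conj_char (γ : AddChar G ℂ) (x : G) : conj (γ x) = γ (-x) := by
  rw [AddChar.map_neg_eq_inv, Complex.inv_eq_conj (γ.norm_apply x)]

theorem normSq_ft (f : G → ℂ) (γ : AddChar G ℂ) :
    ((‖ft f γ‖ ^ 2 : ℝ) : ℂ) = 𝔼 h, (𝔼 x, D h f x) * conj (γ h) := by
  have := U_zero_eq fun x => f x * conj (γ x)
  rw [U] at this
  rw [ft, this]
  refine expect_congr rfl fun h _ => ?_
  rw [expect_mul]
  refine expect_congr rfl fun x _ => ?_
  have h1 : conj (γ x) * γ x = 1 := by
    rw [mul_comm, Complex.mul_conj, Complex.normSq_eq_norm_sq, γ.norm_apply]; simp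
  simp only [D, map_mul, Complex.conj_conj, AddChar.map_add_eq_mul]
  linear_combination (f (x + h) * conj (f x) * conj (γ h)) * h1

theorem parseval (f : G → ℂ) : ∑ γ, ‖ft f γ‖ ^ 2 = 𝔼 x, ‖f x‖ ^ 2 := by
  classical
  apply Complex.ofReal_injective
  rw [Complex.ofReal_sum, Complex.ofReal_expect]
  simp only [normSq_ft]
  rw [← expect_sum_comm]
  simp only [← mul_sum, conj_char, AddChar.sum_apply_eq_ite, neg_eq_zero]
  rw [expect_eq_single_of_mem 0 (mem_univ _) fun j _ hj => by rw [if_neg hj, mul_zero]]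
  have : (Fintype.card G : ℂ) ≠ 0 := Nat.cast_ne_zero.2 Fintype.card_ne_zero
  rw [if_pos rfl, card_univ, ← NNRat.cast_smul_eq_nnqsmul ℂ]
  simp only [D, add_zero, Complex.mul_conj, Complex.normSq_eq_norm_sq, NNRat.cast_inv,
    NNRat.cast_natCast, smul_eq_mul]
  field_simp

theorem U_one (f : G → ℂ) : U 1 f = ∑ γ, ‖ft f γ‖ ^ 4 := by
  have h1 := parseval fun h => 𝔼 x, D h f x
  simp only [ft, ← normSq_ft] at h1
  rw [U]
  simp only [U]
  rw [← h1]
  refine sum_congr rfl fun γ _ => ?_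
  rw [Complex.norm_real, Real.norm_of_nonneg (sq_nonneg _), ← pow_mul]; rfl

/-- the `U²` inverse theorem -/
theorem exists_ft {f : G → ℂ} (hf : B1 f) : ∃ γ, U 1 f ≤ ‖ft f γ‖ ^ 2 := by
  obtain ⟨γ, -, hγ⟩ := exists_max_image univ (fun γ => ‖ft f γ‖ ^ 2) univ_nonempty
  refine ⟨γ, ?_⟩
  have h1 : ∑ γ, ‖ft f γ‖ ^ 2 ≤ 1 := by
    rw [parseval]
    exact expect_le univ_nonempty fun x _ => pow_le_one₀ (norm_nonneg _) (hf x)
  calc U 1 f ≤ ∑ ψ, ‖ft f γ‖ ^ 2 * ‖ft f ψ‖ ^ 2 := by
        rw [U_one]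
        exact sum_le_sum fun ψ _ => by
          rw [show 4 = 2 + 2 from rfl, pow_add]
          exact mul_le_mul_of_nonneg_right (hγ ψ (mem_univ _)) (sq_nonneg _)
    _ ≤ _ := by rw [← mul_sum]; exact mul_le_of_le_one_right (sq_nonneg _) h1

theorem ft_pow_le (f : G → ℂ) (γ : AddChar G ℂ) : ‖ft f γ‖ ^ 4 ≤ U 1 f := by
  rw [U_one]
  exact single_le_sum (f := fun γ => ‖ft f γ‖ ^ 4) (fun _ _ => by positivity) (mem_univ γ)

end Crest.Agent.N49.Gw
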