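import Crest.Agent.N49.Gw.Defs

/-!
# Row 49 (helper31): Gowers' lemma (large Fourier coefficients of derivatives respect many
additive quadruples)
-/

set_option autoImplicit false
open Finset
open scoped BigOperators ComplexConjugate

namespace Crest.Agent.N49.Gw

variable {G : Type*} [AddCommGroup G] [Fintype G]

theorem gvn2 (a : G → ℂ) {F F' : G → ℂ} (hF : B1 F) (hF' : B1 F') :
    ‖𝔼 h, 𝔼 x, a h * (F (x + h) * F' x)‖ ^ 4 ≤ U 1 a := by
  have key := gvn 1 a ![fun h => F' (-h 1), fun h => F (h 0)]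
    (Fin.forall_fin_two.2 ⟨fun _ => hF' _, fun _ => hF _⟩)
    (Fin.forall_fin_two.2 ⟨fun h b => by simp, fun h b => by simp⟩)
  have e : 𝔼 h : Fin (1 + 1) → G, a (∑ i, h i) *
      ∏ j, (![fun h => F' (-h 1), fun h => F (h 0)] : Fin 2 → (Fin 2 → G) → ℂ) j h =
      𝔼 h, 𝔼 x, a h * (F (x + h) * F' x) := by
    rw [← expect_product', univ_product_univ]
    refine Fintype.expect_equiv ⟨fun h => (h 0 + h 1, -h 1), fun p => ![p.2 + p.1, -p.2],
      fun h => ?_, fun p => ?_⟩ _ _ fun h => ?_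
    · funext i; fin_cases i <;> simp
    · ext <;> simp
    · simp [Fin.sum_univ_two, Fin.prod_univ_two, mul_comm]
  rwa [e] at key

theorem gvn2_hom {K : Type*} [AddCommGroup K] [Fintype K] (ι : K →+ G) (a : K → ℂ) {F : G → ℂ}
    (hF : B1 F) : ‖𝔼 h, a h * 𝔼 x, D (ι h) F x‖ ^ 4 ≤ U 1 a := by
  have e : 𝔼 h, a h * 𝔼 x, D (ι h) F x =
      𝔼 x, 𝔼 h, 𝔼 y, a h * (F (x + ι (y + h)) * conj (F (x + ι y))) := by
    rw [expect_comm]
    refine expect_congr rfl fun h _ => ?_
    rw [expect_comm, ← Fintype.expect_const (ι := K) (a h * _)]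
    refine expect_congr rfl fun y _ => ?_
    rw [← expect_shift' (ι y), mul_expect]
    simp only [D, map_add, add_assoc]
  rw [e]
  refine (pow_le_pow_left₀ (norm_nonneg _) (norm_expect _) 4).trans
    ((pow_expect_le (fun _ => norm_nonneg _) 2).trans (expect_le univ_nonempty fun x _ => ?_))
  exact gvn2 a (F := fun y => F (x + ι y)) (F' := fun y => conj (F (x + ι y))) (fun _ => hF _)
    fun y => by rw [Complex.norm_conj]; exact hF _

theorem U_one_eq (f : G → ℂ) : (U 1 f : ℂ) = 𝔼 h, 𝔼 k, 𝔼 x, D k (D h f) x := by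
  rw [U, Complex.ofReal_expect]
  simp only [U_zero_eq]

variable [DecidableEq G]

/-- the graph of `φ` over `A` -/
def gr {H : Type*} [DecidableEq H] (A : Finset G) (φ : G → H) : Finset (G × H) :=
  A.image fun a => (a, φ a)

omit [Fintype G] in
theorem card_quad_le {H : Type*} [AddCommGroup H] [DecidableEq H] (A : Finset G) (φ : G → H)
    (S : Finset (G × G × G)) (hS : ∀ p ∈ S, p.2.2 + p.2.1 + p.1 ∈ A ∧ p.2.2 + p.2.1 ∈ A ∧
      p.2.2 + p.1 ∈ A ∧ p.2.2 ∈ A ∧
      φ (p.2.2 + p.2.1 + p.1) + φ p.2.2 = φ (p.2.2 + p.2.1) + φ (p.2.2 + p.1)) :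
    #S ≤ addEnergy (gr A φ) (gr A φ) := by
  refine card_le_card_of_injOn (fun p => (((p.2.2 + p.2.1 + p.1, φ (p.2.2 + p.2.1 + p.1)),
    (p.2.2 + p.2.1, φ (p.2.2 + p.2.1))), ((p.2.2, φ p.2.2), (p.2.2 + p.1, φ (p.2.2 + p.1)))))
    (fun p hp => ?_) fun p _ q _ e => ?_
  · obtain ⟨h1, h2, h3, h4, h5⟩ := hS p hp
    simp only [coe_filter, mem_product, Set.mem_ofPred_eq, Prod.mk_add_mk, Prod.mk.injEq]
    exact ⟨⟨⟨mem_image_of_mem _ h1, mem_image_of_mem _ h2⟩, mem_image_of_mem _ h4,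
      mem_image_of_mem _ h3⟩, by abel, h5⟩
  · simp only [Prod.mk.injEq] at e
    obtain ⟨⟨-, h2, -⟩, ⟨h3, -⟩, h4, -⟩ := e
    rw [h3] at h2 h4
    exact Prod.ext (add_left_cancel h4) (Prod.ext (add_left_cancel h2) h3)

/-- density -/
noncomputable def dn {X : Type*} [Fintype X] (A : Finset X) : ℝ := #A / Fintype.card X

theorem dn_nonneg {X : Type*} [Fintype X] (A : Finset X) : 0 ≤ dn A := by unfold dn; positivity

theorem expect_ind {X : Type*} [Fintype X] (p : X → Prop) [DecidablePred p] :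
    𝔼 x, (if p x then (1 : ℝ) else 0) = dn {x | p x} := by
  rw [Fintype.expect_eq_sum_div_card, sum_boole, dn]

theorem expect_mem {X : Type*} [Fintype X] [DecidableEq X] (A : Finset X) :
    𝔼 x, (if x ∈ A then (1 : ℝ) else 0) = dn A := by
  rw [expect_ind, filter_mem_eq_inter, univ_inter]

/-- **Gowers' lemma**, for derivatives along a homomorphism `ι` (vector form: `ι` the diagonal) -/
theorem gowers {K : Type*} [AddCommGroup K] [Fintype K] [DecidableEq (AddChar K ℂ)] (ι : G →+ K)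
    {f : K → ℂ} (hf : B1 f) (A : Finset G) (φ : G → AddChar K ℂ) {δ : ℝ} (hδ : 0 ≤ δ)
    (h : ∀ a ∈ A, δ ≤ ‖ft (D (ι a) f) (φ a)‖ ^ 2) :
    (δ * dn A) ^ 4 * (Fintype.card G : ℝ) ^ 3 ≤ addEnergy (gr A φ) (gr A φ) := by
  set a : K → G → ℂ := fun u h => if h ∈ A then conj (φ h u) else 0 with ha
  set T : K → ℂ := fun u => 𝔼 h, a u h * 𝔼 x, D (ι h) (D u f) x with hT
  have e1 : ((𝔼 h, if h ∈ A then ‖ft (D (ι h) f) (φ h)‖ ^ 2 else 0 : ℝ) : ℂ) = 𝔼 u, T u := by
    rw [Complex.ofReal_expect, expect_comm]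
    refine expect_congr rfl fun h _ => ?_
    simp only [ha]
    split_ifs
    · rw [normSq_ft]
      refine expect_congr rfl fun u _ => ?_
      rw [D_comm, mul_comm]
    · simp
  have h1 : δ * dn A ≤ 𝔼 u, ‖T u‖ := by
    refine le_trans ?_ (norm_expect _)
    rw [← e1, Complex.norm_real]
    refine le_trans ?_ (le_abs_self _)
    rw [← expect_mem, mul_expect]
    refine expect_le_expect fun x _ => ?_
    split_ifs with hx
    · rw [mul_one]; exact h x hx
    · rw [mul_zero]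
  have h2 : (δ * dn A) ^ 4 ≤ 𝔼 u, U 1 (a u) :=
    (pow_le_pow_left₀ (mul_nonneg hδ (dn_nonneg A)) h1 4).trans
      ((pow_expect_le (fun _ => norm_nonneg _) 2).trans (expect_le_expect fun u _ =>
        gvn2_hom ι _ (hf.D u)))
  set P : G × G × G → Prop := fun p => p.2.2 + p.2.1 + p.1 ∈ A ∧ p.2.2 + p.2.1 ∈ A ∧
    p.2.2 + p.1 ∈ A ∧ p.2.2 ∈ A ∧
    φ (p.2.2 + p.2.1 + p.1) + φ p.2.2 = φ (p.2.2 + p.2.1) + φ (p.2.2 + p.1) with hP
  have e2 : 𝔼 u, U 1 (a u) = 𝔼 p, if P p then (1 : ℝ) else 0 := by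
    apply Complex.ofReal_injective
    rw [Complex.ofReal_expect, Complex.ofReal_expect, ← univ_product_univ, expect_product]
    simp only [U_one_eq]
    rw [expect_comm]
    refine expect_congr rfl fun h _ => ?_
    rw [← univ_product_univ, expect_product, expect_comm]
    refine expect_congr rfl fun k _ => ?_
    rw [expect_comm]
    refine expect_congr rfl fun x _ => ?_
    by_cases hm : x + k + h ∈ A ∧ x + k ∈ A ∧ x + h ∈ A ∧ x ∈ A
    · obtain ⟨m1, m2, m3, m4⟩ := hm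
      have e3 : ∀ u, D k (D h (a u)) x =
          (φ (x + k) + φ (x + h) - (φ (x + k + h) + φ x)) u := fun u => by
        simp only [D, ha, m1, m2, m3, m4, if_true, map_mul, AddChar.sub_apply,
          AddChar.add_apply, conj_char, neg_neg]
        ring
      simp only [e3, AddChar.expect_eq_ite, hP, m1, m2, m3, m4, true_and, sub_eq_zero, eq_comm]
      split_ifs <;> simp
    · have e3 : ∀ u, D k (D h (a u)) x = 0 := fun u => by
        by_contra c
        simp only [D, ha, mul_eq_zero, map_eq_zero, not_or, ite_eq_right_iff, Classical.not_imp] at c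
        exact hm ⟨c.1.1.1, c.1.2.1, c.2.1.1, c.2.2.1⟩
      rw [if_neg fun c : P (h, k, x) => hm ⟨c.1, c.2.1, c.2.2.1, c.2.2.2.1⟩]
      simp [e3]
  rw [e2, expect_ind] at h2
  change _ ≤ (_ : ℝ) / _ at h2
  have h3 : (#{p | P p} : ℝ) ≤ addEnergy (gr A φ) (gr A φ) := by
    exact_mod_cast card_quad_le A φ _ fun p hp => (mem_filter.1 hp).2
  have g0 : (0 : ℝ) < Fintype.card G := by exact_mod_cast Fintype.card_pos
  rw [le_div_iff₀ (by exact_mod_cast Fintype.card_pos)] at h2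
  simp only [Fintype.card_prod, Nat.cast_mul] at h2
  calc _ = (δ * dn A) ^ 4 *
        ((Fintype.card G : ℝ) * (Fintype.card G * Fintype.card G)) := by ring
    _ ≤ _ := h2.trans h3

end Crest.Agent.N49.Gw
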