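import Crest.Agent.N49.Gw.Lem
import Crest.Agent.N49.Fr.One

/-!
# Row 49 (helper31): from a large Gowers norm to a Freiman multi-homomorphism on a dense set
-/

set_option autoImplicit false
open Finset Function
open scoped BigOperators ComplexConjugate

namespace Crest.Agent.N49.Gw

theorem markov {X : Type*} [Fintype X] [Nonempty X] {u : X → ℝ} (hu : ∀ x, u x ≤ 1) {ε : ℝ}
    (h0 : 0 ≤ ε) (h : ε ≤ 𝔼 x, u x) [DecidablePred fun x => ε / 2 ≤ u x] :
    ε / 2 ≤ dn {x | ε / 2 ≤ u x} := by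
  have : 𝔼 x, u x ≤ 𝔼 x, ((if ε / 2 ≤ u x then (1 : ℝ) else 0) + ε / 2) :=
    expect_le_expect fun x _ => by
      split_ifs with c
      · linarith [hu x]
      · linarith [not_le.1 c]
  rw [expect_add_distrib, expect_ind, Fintype.expect_const] at this
  linarith

theorem dn_le_one {X : Type*} [Fintype X] (A : Finset X) : dn A ≤ 1 :=
  div_le_one_of_le₀ (by exact_mod_cast card_le_univ A) (Nat.cast_nonneg _)

theorem half_anti {m n : ℕ} (h : m ≤ n) : (1 / 2 : ℝ) ^ n ≤ (1 / 2) ^ m :=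
  pow_le_pow_of_le_one (by norm_num) (by norm_num) h

theorem half_le_dn {X : Type*} [Fintype X] [Nonempty X] {A : Finset X} {m : ℕ} :
    (1 / 2 : ℝ) ^ m ≤ dn A ↔ Fintype.card X ≤ 2 ^ m * #A := by
  have g0 : (0 : ℝ) < Fintype.card X := by exact_mod_cast Fintype.card_pos
  rw [dn, one_div, inv_pow, le_div_iff₀ g0, inv_mul_le_iff₀ (by positivity)]
  exact_mod_cast Iff.rfl

variable {G : Type*} [AddCommGroup G] [Fintype G] [DecidableEq G]
  {H : Type*} [AddCommGroup H] [DecidableEq H]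

/-- Freiman homomorphism of order `t` in the direction `i` -/
def Dir {s : ℕ} (t : ℕ) (A : Finset (Fin s → G)) (φ : (Fin s → G) → H) (i : Fin s) : Prop :=
  ∀ h : Fin s → G, IsAddFreimanHom t {a | update h i a ∈ A} Set.univ fun a => φ (update h i a)

/-- Freiman multi-homomorphism of order `t` -/
def MHom {s : ℕ} (t : ℕ) (A : Finset (Fin s → G)) (φ : (Fin s → G) → H) : Prop := ∀ i, Dir t A φ i

omit [Fintype G] [DecidableEq G] [DecidableEq H] in
theorem Dir.mono {s t : ℕ} {A A' : Finset (Fin s → G)} {φ : (Fin s → G) → H} {i : Fin s}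
    (h : Dir t A φ i) (hA : A' ⊆ A) : Dir t A' φ i := fun x =>
  (h x).subset (fun _ ha => hA ha) (Set.mapsTo_univ _ _)

variable (G H) in
/-- extraction of a Freiman homomorphism from many respected quadruples -/
def Fre (t C : ℕ) : Prop := ∀ (A : Finset G) (φ : G → H) (m : ℕ), 1 ≤ m →
  Fintype.card G ^ 3 ≤ 2 ^ m * addEnergy (gr A φ) (gr A φ) →
    ∃ A' ⊆ A, Fintype.card G ≤ 2 ^ (C * m) * #A' ∧ IsAddFreimanHom t (A' : Set G) Set.univ φ

/-- every subset of every fibre respects many quadruples -/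
def Quad {s : ℕ} (δ : ℝ) (A : Finset (Fin s → G)) (φ : (Fin s → G) → H) : Prop :=
  ∀ i h (B : Finset G), (∀ a ∈ B, update h i a ∈ A) → (δ * dn B) ^ 4 * (Fintype.card G : ℝ) ^ 3 ≤
    addEnergy (gr B fun a => φ (update h i a)) (gr B fun a => φ (update h i a))

theorem Quad.mono {s : ℕ} {δ δ' : ℝ} {A A' : Finset (Fin s → G)} {φ : (Fin s → G) → H}
    (h : Quad δ A φ) (hA : A' ⊆ A) (h0 : 0 ≤ δ') (hδ : δ' ≤ δ) : Quad δ' A' φ := fun i x B hB =>
  le_trans (by have := dn_nonneg B; gcongr) (h i x B fun a ha => hA (hB a ha))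

theorem dir_step {t C s m : ℕ} (hF : Fre G H t C) (hm : 1 ≤ m) {A : Finset (Fin s → G)}
    {φ : (Fin s → G) → H} (hq : Quad ((1 / 2) ^ m) A φ) (hA : (1 / 2 : ℝ) ^ m ≤ dn A) (i : Fin s) :
    ∃ A' ⊆ A, (1 / 2 : ℝ) ^ ((12 * C + 2) * m) ≤ dn A' ∧ Dir t A' φ i := by
  classical
  obtain ⟨s, rfl⟩ : ∃ s', s = s' + 1 := ⟨s - 1, by have := i.pos; omega⟩
  have e0 : ∀ (h : Fin s → G) (a : G), update (i.insertNth 0 h : Fin (s + 1) → G) i a =
      i.insertNth a h := fun h a => by simp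
  set B : (Fin s → G) → Finset G := fun h => {a | i.insertNth a h ∈ A} with hB
  have key : ∀ h, ∃ B' ⊆ B h, ((1 / 2 : ℝ) ^ m / 2 ≤ dn (B h) → (1 / 2 : ℝ) ^ (C * (12 * m)) ≤ dn B') ∧
      IsAddFreimanHom t (B' : Set G) Set.univ fun a => φ (i.insertNth a h) := fun h => by
    by_cases hg : (1 / 2 : ℝ) ^ m / 2 ≤ dn (B h)
    · have h1 := hq i (i.insertNth 0 h) (B h) fun a ha => by rw [e0]; exact (mem_filter.1 ha).2
      simp only [e0] at h1
      obtain ⟨B', h2, h3, h4⟩ := hF (B h) (fun a => φ (i.insertNth a h)) (12 * m) (by omega) (by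
        have h5 : (1 / 2 : ℝ) ^ (12 * m) ≤ ((1 / 2) ^ m * dn (B h)) ^ 4 :=
          calc _ ≤ (1 / 2 : ℝ) ^ ((m + (m + 1)) * 4) := half_anti (by omega)
            _ = ((1 / 2 : ℝ) ^ m * ((1 / 2) ^ m / 2)) ^ 4 := by ring
            _ ≤ _ := by gcongr
        have h6 := (mul_le_mul_of_nonneg_right h5 (by positivity)).trans h1
        rw [one_div, inv_pow, inv_mul_le_iff₀ (by positivity)] at h6
        exact_mod_cast h6)
      exact ⟨B', h2, fun _ => half_le_dn.2 h3, h4⟩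
    · exact ⟨∅, empty_subset _, fun c => absurd c hg, by simp⟩
  choose B' h1 h2 h3 using key
  have hd : ∀ S : Finset (Fin (s + 1) → G), dn S = 𝔼 h, dn ({a | i.insertNth a h ∈ S} : Finset G) :=
    fun S => by
      rw [← expect_mem, expect_ins i]
      simp only [expect_ind]
  refine ⟨univ.filter fun x : Fin (s + 1) → G => x i ∈ B' (i.removeNth x), fun x hx => ?_, ?_, fun x => ?_⟩
  · simpa [hB] using h1 _ (mem_filter.1 hx).2
  · have h4 := markov (u := fun h => dn (B h)) (fun _ => dn_le_one _) (by positivity) (hd A ▸ hA)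
    rw [← expect_ind] at h4
    rw [hd]
    calc _ ≤ (1 / 2 : ℝ) ^ (C * (12 * m) + (m + 1)) := half_anti (by nlinarith)
      _ = (1 / 2 : ℝ) ^ (C * (12 * m)) * ((1 / 2) ^ m / 2) := by ring
      _ ≤ _ := mul_le_mul_of_nonneg_left h4 (by positivity)
      _ ≤ _ := by
        rw [mul_expect]
        refine expect_le_expect fun h _ => ?_
        split_ifs with c
        · simpa using h2 h c
        · rw [mul_zero]; exact dn_nonneg _
  · simp only [← Fin.insertNth_removeNth i _ x]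
    convert h3 (i.removeNth x) using 1
    ext a; simp

theorem mhom_of_quad {t C s m : ℕ} (hF : Fre G H t C) (hm : 1 ≤ m) {A : Finset (Fin s → G)}
    {φ : (Fin s → G) → H} (hq : Quad ((1 / 2) ^ m) A φ) (hA : (1 / 2 : ℝ) ^ m ≤ dn A) :
    ∃ A' ⊆ A, (1 / 2 : ℝ) ^ ((12 * C + 2) ^ s * m) ≤ dn A' ∧ MHom t A' φ := by
  have key : ∀ I : Finset (Fin s), ∃ A' ⊆ A, (1 / 2 : ℝ) ^ ((12 * C + 2) ^ #I * m) ≤ dn A' ∧
      ∀ i ∈ I, Dir t A' φ i := fun I => by
    induction I using Finset.induction_on with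
    | empty => exact ⟨A, Subset.rfl, by simpa using hA, by simp⟩
    | insert i I hi ih =>
      obtain ⟨A1, h1, h2, h3⟩ := ih
      have h4 : m ≤ (12 * C + 2) ^ #I * m := Nat.le_mul_of_pos_left _ (by positivity)
      obtain ⟨A2, g1, g2, g3⟩ := dir_step hF (hm.trans h4)
        (hq.mono h1 (by positivity) (half_anti h4)) h2 i
      refine ⟨A2, g1.trans h1, by rwa [card_insert_of_notMem hi, pow_succ', mul_assoc],
        fun j hj => ?_⟩
      rcases mem_insert.1 hj with rfl | hj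
      exacts [g3, (h3 j hj).mono g1]
  obtain ⟨A', h1, h2, h3⟩ := key univ
  exact ⟨A', h1, by simpa using h2, fun i => h3 i (mem_univ i)⟩

omit [Fintype G] [DecidableEq G] in
theorem Dv_update {s : ℕ} (h : Fin (s + 1) → G) (i : Fin (s + 1)) (a : G) (f : G → ℂ) :
    Dv (update h i a) f = D a (Dv (i.removeNth h) f) := by
  rw [← Fin.insertNth_removeNth, Dv_ins]

/-- large Fourier coefficients of the derivatives along `ι` respect many quadruples -/
theorem quad_of_ft {K : Type*} [AddCommGroup K] [Fintype K] [DecidableEq (AddChar K ℂ)] (ι : G →+ K)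
    {f : K → ℂ} (hf : B1 f) {s : ℕ} {A : Finset (Fin s → G)} {φ : (Fin s → G) → AddChar K ℂ}
    {δ : ℝ} (hδ : 0 ≤ δ) (h : ∀ x ∈ A, δ ≤ ‖ft (Dv (ι ∘ x) f) (φ x)‖ ^ 2) : Quad δ A φ := by
  intro i x B hB
  obtain ⟨s, rfl⟩ : ∃ s', s = s' + 1 := ⟨s - 1, by have := i.pos; omega⟩
  refine gowers ι (hf.Dv (i.removeNth (ι ∘ x))) B _ hδ fun a ha => ?_
  have := h _ (hB a ha)
  rwa [comp_update, Dv_update] at this

/-- **the Gowers step of the inverse theorem** -/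
theorem multihom [DecidableEq (AddChar G ℂ)] {t C s m : ℕ} (hF : Fre G (AddChar G ℂ) t C)
    (hm : 1 ≤ m) {f : G → ℂ} (hf : B1 f) (hU : (1 / 2 : ℝ) ^ m ≤ U (s + 1) f) :
    ∃ (A : Finset (Fin s → G)) (φ : (Fin s → G) → AddChar G ℂ),
      (1 / 2 : ℝ) ^ (2 * (12 * C + 2) ^ s * m) ≤ dn A ∧
      (∀ x ∈ A, (1 / 2 : ℝ) ^ (m + 1) ≤ ‖ft (Dv x f) (φ x)‖ ^ 2) ∧ MHom t A φ := by
  classical
  choose φ hφ using fun x : Fin s → G => exists_ft (hf.Dv x)
  rw [add_comm, U_add] at hU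
  have h1 := markov (fun x => U_le_one 1 (hf.Dv x)) (by positivity) hU
  have e : (1 / 2 : ℝ) ^ m / 2 = (1 / 2) ^ (m + 1) := by ring
  have h2 : ∀ x ∈ ({x | (1 / 2 : ℝ) ^ m / 2 ≤ U 1 (Dv x f)} : Finset (Fin s → G)),
      (1 / 2 : ℝ) ^ (m + 1) ≤ ‖ft (Dv x f) (φ x)‖ ^ 2 := fun x hx =>
    e ▸ (mem_filter.1 hx).2.trans (hφ x)
  have h3 : (1 / 2 : ℝ) ^ (2 * m) ≤ (1 / 2) ^ (m + 1) := half_anti (by omega)
  obtain ⟨A, g1, g2, g3⟩ := mhom_of_quad hF (show 1 ≤ 2 * m by omega)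
    (quad_of_ft (AddMonoidHom.id G) hf (by positivity) fun x hx => h3.trans (h2 x hx))
    (h3.trans (e ▸ h1))
  exact ⟨A, φ, by rwa [show 2 * (12 * C + 2) ^ s * m = (12 * C + 2) ^ s * (2 * m) by ring],
    fun x hx => h2 x (g1 hx), g3⟩

universe u v

theorem exists_fre (t : ℕ) : ∃ C : ℕ, ∀ (G : Type u) (H : Type v) [AddCommGroup G] [Fintype G]
    [DecidableEq G] [AddCommGroup H] [DecidableEq H], Fre G H t C := by
  obtain ⟨C, hC⟩ := Fr.fre.{u, v} t
  exact ⟨C, fun G H _ _ _ _ _ A φ m hm h => hC A φ m hm h⟩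

/-- vector form: large Fourier coefficients on a dense set of derivatives along `ι` -/
theorem mhom_of_ft (s t : ℕ) : ∃ C : ℕ, ∀ {G : Type u} {K : Type v} [AddCommGroup G] [Fintype G]
    [DecidableEq G] [AddCommGroup K] [Fintype K] (ι : G →+ K) (f : K → ℂ) (A : Finset (Fin s → G))
    (φ : (Fin s → G) → AddChar K ℂ) (m : ℕ), 1 ≤ m → B1 f → (1 / 2 : ℝ) ^ m ≤ dn A →
    (∀ x ∈ A, (1 / 2 : ℝ) ^ m ≤ ‖ft (Dv (ι ∘ x) f) (φ x)‖ ^ 2) →
    ∃ A' ⊆ A, (1 / 2 : ℝ) ^ (C * m) ≤ dn A' ∧ MHom t A' φ := by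
  classical
  obtain ⟨C, hC⟩ := exists_fre.{u, v} t
  exact ⟨(12 * C + 2) ^ s, fun ι f A φ m hm hf hA h =>
    mhom_of_quad (hC _ _) hm (quad_of_ft ι hf (by positivity) h) hA⟩

/-- **the Gowers step of the inverse theorem, unconditional** -/
theorem mh (s t : ℕ) : ∃ C : ℕ, ∀ {G : Type u} [AddCommGroup G] [Fintype G] [DecidableEq G]
    (f : G → ℂ) (m : ℕ), 1 ≤ m → B1 f → (1 / 2 : ℝ) ^ m ≤ U (s + 1) f →
    ∃ (A : Finset (Fin s → G)) (φ : (Fin s → G) → AddChar G ℂ), (1 / 2 : ℝ) ^ (C * m) ≤ dn A ∧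
      (∀ x ∈ A, (1 / 2 : ℝ) ^ (m + 1) ≤ ‖ft (Dv x f) (φ x)‖ ^ 2) ∧ MHom t A φ := by
  classical
  obtain ⟨C, hC⟩ := exists_fre.{u, u} t
  exact ⟨2 * (12 * C + 2) ^ s, fun f m hm hf hU => multihom (hC _ _) hm hf hU⟩

end Crest.Agent.N49.Gw
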